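import Vale.Agent.P154.LN.Final
import Vale.Agent.P154.Q4.Recursion
import Vale.Agent.P154.Q4.Kernels

/-!
The reconstruction threshold of the three-state Potts channel at every admissible parameter, and
of the four-state channel at every nonnegative parameter, on every regular tree and every Poisson
Galton–Watson tree: it is the Kesten–Stigum value, with nonreconstruction at criticality.
-/

namespace Vale.Agent.Results.P154.PottsThresholdFull

open Filter Topology Vale.Agent.P154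

theorem result :
    (∀ (q d : ℕ) (lam : ℝ), 2 ≤ d →
      (q = 3 ∧ -(1 / 2) ≤ lam ∨ q = 4 ∧ 0 ≤ lam) → lam ≤ 1 →
      ((d : ℝ) * lam ^ 2 ≤ 1 → Tendsto (advantage q lam (regularLaw d)) atTop (𝓝 0)) ∧
      (1 < (d : ℝ) * lam ^ 2 → ∃ c > 0, ∀ n, c ≤ advantage q lam (regularLaw d) n)) ∧
    (∀ (q : ℕ) (d lam : ℝ), 0 < d →
      (q = 3 ∧ -(1 / 2) ≤ lam ∨ q = 4 ∧ 0 ≤ lam) → lam ≤ 1 →
      (d * lam ^ 2 ≤ 1 → Tendsto (advantage q lam (poissonLaw d)) atTop (𝓝 0)) ∧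
      (1 < d * lam ^ 2 → ∃ c > 0, ∀ n, c ≤ advantage q lam (poissonLaw d) n)) ∧
    (∀ (q : ℕ) (ν : ℕ → ℝ) (m lam : ℝ), (∀ k, 0 ≤ ν k) → HasSum ν 1 →
      HasSum (fun k => ν k * k) m → (∃ k, 2 ≤ k ∧ 0 < ν k) →
      (q = 3 ∧ -(4903 / 25000) ≤ lam ∨ q = 4 ∧ 0 ≤ lam) → lam ≤ 1 →
      m * lam ^ 2 ≤ 1 → Tendsto (advantage q lam ν) atTop (𝓝 0)) := by
  obtain ⟨R3, P3⟩ := LN.three_state_threshold LN.regularDecay LN.poissonDecay
  refine ⟨fun q d lam hd hq h1 => ?_, fun q d lam hd hq h1 => ?_, fun q ν m lam hν hν1 hm hk hq h1 h => ?_⟩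
  · rcases hq with ⟨rfl, h0⟩ | ⟨rfl, h0⟩
    · exact R3 d lam hd h0 h1
    · exact ⟨fun h => Q4.nonrecon_of_le Q4.kernels h0 h1 (regularLaw_nonneg d) (hasSum_regularLaw d)
          (hasSum_regularLaw_mean d) ⟨d, hd, by simp [regularLaw]⟩ h,
        fun h => recon_regular (q := 4) (by norm_num) (by norm_num; linarith) h1 h⟩
  · rcases hq with ⟨rfl, h0⟩ | ⟨rfl, h0⟩
    · exact P3 d lam hd h0 h1
    · exact ⟨fun h => Q4.nonrecon_of_le Q4.kernels h0 h1 (poissonLaw_nonneg hd.le)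
          (hasSum_poissonLaw d) (hasSum_poissonLaw_mean d) ⟨2, le_rfl, poissonLaw_two_pos hd⟩ h,
        fun h => recon_poisson (q := 4) (by norm_num) (by norm_num; linarith) h1 hd h⟩
  · rcases hq with ⟨rfl, h0⟩ | ⟨rfl, h0⟩
    · rcases le_total 0 lam with hl | hl
      · exact nonrecon_of_le hl h1 hν hν1 hm hk h
      · exact AF.nonrecon_of_le h0 hl hν hν1 hm hk h
    · exact Q4.nonrecon_of_le Q4.kernels h0 h1 hν hν1 hm hk h

end Vale.Agent.Results.P154.PottsThresholdFull
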