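import Vale.Agent.P154.LN.Final

/-!
Three-state Potts channel: the Kesten–Stigum value is the exact reconstruction threshold on every
regular tree and every Poisson Galton–Watson tree, for both signs of the parameter, critical value
included.
-/

namespace Vale.Agent.Results.P154.ThreeStateAll

open Filter Topology Vale.Agent.P154

theorem result :
    (∀ (d : ℕ) (lam : ℝ), 2 ≤ d → -(1 / 2) ≤ lam → lam ≤ 1 →
      ((d : ℝ) * lam ^ 2 ≤ 1 → Tendsto (advantage 3 lam (regularLaw d)) atTop (𝓝 0)) ∧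
      (1 < (d : ℝ) * lam ^ 2 → ∃ c > 0, ∀ n, c ≤ advantage 3 lam (regularLaw d) n)) ∧
    (∀ (d lam : ℝ), 0 < d → -(1 / 2) ≤ lam → lam ≤ 1 →
      (d * lam ^ 2 ≤ 1 → Tendsto (advantage 3 lam (poissonLaw d)) atTop (𝓝 0)) ∧
      (1 < d * lam ^ 2 → ∃ c > 0, ∀ n, c ≤ advantage 3 lam (poissonLaw d) n)) :=
  LN.three_state_threshold LN.regularDecay LN.poissonDecay

end Vale.Agent.Results.P154.ThreeStateAll
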